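import Vale.Agent.P365.T2.H698.OneOut
import Vale.Agent.P365.T2.H775.Diff
import Vale.Agent.P365.T2.H320.UHub

set_option linter.all false

/-!
# P365 T2 / H698 / OneOutF: the one-site output with helper775's `th1_diff` plugged in

No hypothesis left: `|∫ ρ' flux(Ups)| ≤ CY CLy² (1 + log⁺(1/e_y))² e_y ∑_j Yf_j + (4 + k) ∫ Cont dμ`,
`a = 200 (T+1)(J+2)`, `b = 200 e^{T/2} √(J+2)`.
-/

namespace P365T2.H698

open P365L P365O P365T1 MeasureTheory Set Complex
open P365T2.H844 (tt pr Pw Vr ur Gf Gf1 fam)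
open P365T2.H37 (wk rho)
open Vale.Agent.P365.T2.H789 (Dens)
open P365L.T2.Path (SmLaw)
open P365T2.H913 (CY CLy)
open P365H878 (HV Om)

variable {ι : Type*} [Fintype ι] [DecidableEq ι] {A : Matrix ι ι ℝ}
variable {E : ℝ} {e : ι → ℝ} {μ : Measure ℝ} {ρ ρ' : ℝ → ℝ} {L C0 C1 : ℝ}

/-- the cumulative kernels of a finite family are finite families of squares -/
theorem hasFam_fam {κ : Type*} [Fintype κ] (F : κ → ι → ℝ) (J : ℕ) :
    P365T2.H775.HasFam (fam F) J :=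
  P365T2.H775.hasFam_of F J (fun k => P365T2.H320U.exists_Hfam F J k) (P365T2.H844.tt_fam F)

/-- **THE ONE-SITE OUTPUT, no hypothesis left** -/
theorem one_out_fam (hA : A.IsSymm) {κ : Type*} [Fintype κ] (F : κ → ι → ℝ) {T : ℝ} (hT : 0 ≤ T)
    (J : ℕ) (ht4 : ∀ x y, ∑ j, (F j x - F j y) ^ 2 ≤ 4 ^ J) (y : ι) (hμ : SmLaw μ ρ ρ')
    (hD : Dens ρ ρ' L C0 C1) (hL : 0 < L) (he : ∀ x, 0 < e x) (v : ι → ℝ) {k : ℝ} (hk : 0 < k) :
    |∫ t : ℝ, ρ' t * HV A (fun W => ∑ x, ∑ k ∈ Finset.range (J + 2),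
        rho k * pr (P365T2.H844.TT A W) x *
          Gf (Real.exp (-T)) (ur (fam F) (P365T2.H844.TT A W) J k x)) y
        (WV E e (Function.update v y t))| ≤
      CY L C0 C1 (200 * (T + 1) * (J + 2)) (200 * Real.exp (T / 2) * √(J + 2)) k *
        (CLy L E ^ 2 * (1 + max 0 (Real.log (1 / e y))) ^ 2 *
          (e y * ∑ j, Yf A (WV E e v) (F j) y)) +
        (4 + k) * ∫ t, Cont (fam F) A J y (WV E e (Function.update v y t)) ∂μ := by
  have hJ : (0 : ℝ) ≤ J + 2 := by positivity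
  refine one_out hA F (Real.exp_pos _) J y hμ hD hL he v (by positivity) (by positivity) hk ?_
  intro W hW s s0
  have h := P365T2.H775.th1_diff (Φ := fam F) (A := A) (W := W) hA hW hT (hasFam_fam F J)
    (fun x b => by rw [P365T2.H844.tt_fam]; exact ht4 x b) y s s0
  have e1 : √((J + 2) * P365T2.H775.Nh (fam F) A W y) =
      √((J : ℝ) + 2) * √(P365T2.H775.Nh (fam F) A W y) := Real.sqrt_mul hJ _
  rw [e1] at h
  refine h.trans (le_of_eq ?_)
  have e2 : P365T2.H775.Nh (fam F) A W y = Nh (fam F) A W y := rfl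
  have e3 : P365T2.H775.BB (fam F) A (rez W y s0) y = BB (fam F) A (rez W y s0) y := rfl
  rw [e2, e3]
  ring

end P365T2.H698
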