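import Vale.Agent.P365.T2.H878.LL2
import Vale.Agent.P365.T1a.Site

set_option linter.all false

/-!
# P365 T2 / H698 / Mov: the moving part (2b) of the local law error of the one-body entropy

775's note 20406 (2b) = 698's note 20434 (L2), at the level of the Green matrix.
Two configurations `W`, `W0` which differ only by the real potential of one site `y`:

* `OneOff`: same absorption, same unit wave `gw`, same Green matrix with `y` removed `Gi`;
* `sqrt_NN_sub`, `sqrt_MM_sub` : `|√N_x - √N_x⁰| ≤ |t - t⁰| √(e_x |c_x|² W_x)`;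
* `abs_HV_NN` : `|flux N_x| ≤ (e_y / Γ) |c_x| √(e_x W_x) √N_x`;
* `mov_le` : `∑_x |λ(u_x) - λ(u_x⁰)| |flux N_x| ≤ (3D+8) e_y |t - t⁰| (4 N̂_y + 2 √(N̂_y ∑ e_x |c_x|² N_x⁰/M_x⁰))`.
-/

namespace P365T2.H698

open P365L P365O P365T1 P365H878 Vale.Agent.P365.J376 Complex
open scoped ComplexConjugate

/-! ### scalars -/

/-- one-variable inequality: `a, a0` square roots of `N`, `n, n0` square roots of `M` -/
theorem scal {lam : ℝ → ℝ} {B D rk a a0 n n0 p q : ℝ} (hD : 0 ≤ D)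
    (hbd : ∀ u u0, 0 ≤ u → 0 ≤ u0 → u ≤ B → u0 ≤ B → |lam u - lam u0| ≤ D)
    (hlog : ∀ u u0, 0 < u → 0 < u0 → |lam u - lam u0| ≤ (5 / 4) * |Real.log u - Real.log u0|)
    (hrk : 0 < rk) (ha : 0 ≤ a) (ha0 : 0 ≤ a0) (hn : 0 < n) (hn0 : 0 < n0)
    (hp : |a - a0| ≤ p) (hq : |n - n0| ≤ q)
    (hu : a ^ 2 / n ^ 2 / rk ≤ B) (hu0 : a0 ^ 2 / n0 ^ 2 / rk ≤ B) :
    |lam (a ^ 2 / n ^ 2 / rk) - lam (a0 ^ 2 / n0 ^ 2 / rk)| * a ≤
      (3 * D + 8) * (p + a0 / n0 * q) := by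
  have hp0 : 0 ≤ p := (abs_nonneg _).trans hp
  have hq0 : 0 ≤ q := (abs_nonneg _).trans hq
  have hr0 : 0 ≤ a0 / n0 := by positivity
  have hrq : 0 ≤ a0 / n0 * q := by positivity
  have hB := hbd _ _ (by positivity) (by positivity) hu hu0
  have habs := abs_nonneg (lam (a ^ 2 / n ^ 2 / rk) - lam (a0 ^ 2 / n0 ^ 2 / rk))
  rw [abs_le] at hp hq
  by_cases h1 : p ≤ a0 / 2
  · by_cases h2 : q ≤ n0 / 2
    · -- near: logarithms
      rcases eq_or_lt_of_le ha0 with h0 | h0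
      · have : p = 0 := by linarith
        have : a = 0 := by linarith [hp.1, hp.2]
        rw [this, mul_zero]
        have : 0 ≤ (3 * D + 8) * (p + a0 / n0 * q) := by positivity
        exact this
      · have ha1 : a0 / 2 ≤ a := by linarith
        have ha2 : a ≤ 3 / 2 * a0 := by linarith
        have hn1 : n0 / 2 ≤ n := by linarith
        have hn2 : n ≤ 3 / 2 * n0 := by linarith
        have hapos : 0 < a := by linarith
        have hL := hlog (a ^ 2 / n ^ 2 / rk) (a0 ^ 2 / n0 ^ 2 / rk) (by positivity) (by positivity)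
        have e1 : Real.log (a ^ 2 / n ^ 2 / rk) - Real.log (a0 ^ 2 / n0 ^ 2 / rk) =
            2 * (Real.log a - Real.log a0) - 2 * (Real.log n - Real.log n0) := by
          rw [Real.log_div (by positivity) hrk.ne', Real.log_div (by positivity) hrk.ne',
            Real.log_div (by positivity) (by positivity),
            Real.log_div (by positivity) (by positivity), Real.log_pow, Real.log_pow,
            Real.log_pow, Real.log_pow]
          push_cast
          ring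
        have key : ∀ {b b0 s : ℝ}, 0 < b → 0 < b0 → b0 / 2 ≤ b → |b - b0| ≤ s →
            |Real.log b - Real.log b0| ≤ 2 * s / b0 := by
          intro b b0 s hb hb0 hb1 hs
          have h3 : Real.log b - Real.log b0 ≤ (b - b0) / b0 := by
            rw [← Real.log_div hb.ne' hb0.ne']
            have := Real.log_le_sub_one_of_pos (div_pos hb hb0)
            have e : (b - b0) / b0 = b / b0 - 1 := by field_simp
            rw [e]; exact this
          have h4 : Real.log b0 - Real.log b ≤ (b0 - b) / b := by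
            rw [← Real.log_div hb0.ne' hb.ne']
            have := Real.log_le_sub_one_of_pos (div_pos hb0 hb)
            have e : (b0 - b) / b = b0 / b - 1 := by field_simp
            rw [e]; exact this
          have hs0 : 0 ≤ s := (abs_nonneg _).trans hs
          rw [abs_le] at hs
          have h5 : (b - b0) / b0 ≤ 2 * s / b0 := by
            apply div_le_div_of_nonneg_right _ hb0.le
            linarith
          have h6 : (b0 - b) / b ≤ 2 * s / b0 := by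
            rw [div_le_div_iff₀ hb hb0]
            nlinarith
          rw [abs_le]
          constructor <;> linarith
        have k1 := key hapos h0 ha1 (abs_le.2 hp)
        have k2 := key hn hn0 hn1 (abs_le.2 hq)
        have h3 : |lam (a ^ 2 / n ^ 2 / rk) - lam (a0 ^ 2 / n0 ^ 2 / rk)| ≤
            5 * (p / a0) + 5 * (q / n0) := by
          refine hL.trans ?_
          rw [e1]
          have h4 : |2 * (Real.log a - Real.log a0) - 2 * (Real.log n - Real.log n0)| ≤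
              2 * (2 * p / a0) + 2 * (2 * q / n0) := by
            rw [abs_le] at k1 k2 ⊢
            constructor <;> linarith [k1.1, k1.2, k2.1, k2.2]
          have h5 : 2 * (2 * p / a0) + 2 * (2 * q / n0) = 4 * (p / a0) + 4 * (q / n0) := by ring
          rw [h5] at h4
          linarith
        have hp1 : 0 ≤ p / a0 := by positivity
        have hq1 : 0 ≤ q / n0 := by positivity
        calc |lam (a ^ 2 / n ^ 2 / rk) - lam (a0 ^ 2 / n0 ^ 2 / rk)| * a
            ≤ (5 * (p / a0) + 5 * (q / n0)) * (3 / 2 * a0) :=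
              mul_le_mul h3 ha2 ha (by positivity)
          _ = 15 / 2 * (p + a0 / n0 * q) := by field_simp; ring
          _ ≤ (3 * D + 8) * (p + a0 / n0 * q) :=
              mul_le_mul_of_nonneg_right (by linarith) (by positivity)
    · have h2' : n0 / 2 < q := not_le.1 h2
      have ha2 : a ≤ 3 / 2 * a0 := by linarith
      have h3 : a0 ≤ 2 * (a0 / n0 * q) := by
        have : a0 / n0 * (n0 / 2) ≤ a0 / n0 * q := mul_le_mul_of_nonneg_left h2'.le hr0
        have e : a0 / n0 * (n0 / 2) = a0 / 2 := by field_simp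
        linarith
      calc |lam (a ^ 2 / n ^ 2 / rk) - lam (a0 ^ 2 / n0 ^ 2 / rk)| * a
          ≤ D * (3 * (a0 / n0 * q)) := mul_le_mul hB (by linarith) ha hD
        _ ≤ (3 * D + 8) * (p + a0 / n0 * q) := by nlinarith
  · have h1' : a0 / 2 < p := not_le.1 h1
    calc |lam (a ^ 2 / n ^ 2 / rk) - lam (a0 ^ 2 / n0 ^ 2 / rk)| * a
        ≤ D * (3 * p) := mul_le_mul hB (by linarith) ha hD
      _ ≤ (3 * D + 8) * (p + a0 / n0 * q) := by nlinarith

/-! ### the line through one site -/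

variable {ι : Type*} [Fintype ι] [DecidableEq ι] {A : Matrix ι ι ℝ}

/-- `W` and `W0` differ only in the real potential of `y` -/
structure OneOff (A : Matrix ι ι ℝ) (y : ι) (W W0 : ι → ℂ) : Prop where
  h1 : W ∈ Om ι
  h0 : W0 ∈ Om ι
  im : ∀ a, (W a).im = (W0 a).im
  gw : ∀ a, gw A W y a = gw A W0 y a
  gi : ∀ a b, Gi A W y a b = Gi A W0 y a b
  sg : sg A W y = sg A W0 y

/-- `W_w = ∑_z e_z |c_z|² w_z` (for `w = 1` the total flux `Sf`) -/
noncomputable def Wq (A : Matrix ι ι ℝ) (W : ι → ℂ) (y : ι) (w : ι → ℝ) : ℝ :=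
  ∑ z, (-(W z).im) * ‖gw A W y z‖ ^ 2 * w z

theorem Wq_nonneg {W : ι → ℂ} (hW : W ∈ Om ι) (y : ι) {w : ι → ℝ} (hw : ∀ z, 0 ≤ w z) :
    0 ≤ Wq A W y w :=
  Finset.sum_nonneg fun z _ => mul_nonneg (mul_nonneg (by linarith [hW z]) (sq_nonneg _)) (hw z)

theorem Wq_one (W : ι → ℂ) (y : ι) : Wq A W y (fun _ => 1) = Sf A W y := by
  unfold Wq Sf
  exact Finset.sum_congr rfl fun z _ => by ring

theorem OneOff.update (hA : A.IsSymm) {W : ι → ℂ} (hW : W ∈ Om ι) (y : ι) {v v0 : ℂ}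
    (hv : v.im = v0.im) (hv0 : v0.im < 0) :
    OneOff A y (Function.update W y v) (Function.update W y v0) := by
  have hv' : v.im < 0 := by rw [hv]; exact hv0
  refine ⟨update_neg hW hv', update_neg hW hv0, fun a => ?_, fun a => ?_, fun a b => ?_, ?_⟩
  · by_cases h : a = y
    · subst h
      simp [hv]
    · rw [Function.update_of_ne h, Function.update_of_ne h]
  · rw [gw_upd hA hW hv', gw_upd hA hW hv0]
  · rw [Gi_upd hA hW hv', Gi_upd hA hW hv0]
  · rw [sg_upd hA hW hv', sg_upd hA hW hv0]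

variable {y : ι} {W W0 : ι → ℂ}

theorem OneOff.gr_sub (hA : A.IsSymm) (h : OneOff A y W W0) (a b : ι) :
    Gr A W a b - Gr A W0 a b = P365T1.gw A W y a * P365T1.gw A W y b *
      (Gr A W y y - Gr A W0 y y) := by
  rw [Gr_eq_Gi hA h.h1 y a b, Gr_eq_Gi hA h.h0 y a b, h.gi, h.gw a, h.gw b]
  ring

theorem OneOff.Wq_eq (h : OneOff A y W W0) (w : ι → ℝ) : Wq A W y w = Wq A W0 y w := by
  unfold Wq
  exact Finset.sum_congr rfl fun z _ => by rw [h.im, h.gw]

/-- square roots of quadratic forms along the line -/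
theorem sqrt_NN_sub (hA : A.IsSymm) (h : OneOff A y W W0) {w : ι → ℝ} (hw : ∀ z, 0 ≤ w z)
    (x : ι) :
    |√(NN A w x W) - √(NN A w x W0)| ≤
      ‖Gr A W y y - Gr A W0 y y‖ * √((-(W x).im) * ‖P365T1.gw A W y x‖ ^ 2 * Wq A W y w) := by
  have hc : ∀ z, 0 ≤ (W x).im * (W z).im * w z := fun z =>
    mul_nonneg (mul_nonneg_of_nonpos_of_nonpos (h.h1 x).le (h.h1 z).le) (hw z)
  let v : (ι → ℂ) → EuclideanSpace ℂ ι := fun V =>
    WithLp.toLp 2 fun z => ((√((W x).im * (W z).im * w z) : ℝ) : ℂ) * Gr A V x z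
  have hn : ∀ V : ι → ℂ, (∀ a, (V a).im = (W a).im) → ‖v V‖ = √(NN A w x V) := by
    intro V hV
    rw [EuclideanSpace.norm_eq]
    congr 1
    unfold NN TT KK
    refine Finset.sum_congr rfl fun z _ => ?_
    simp only [v]
    rw [norm_mul, mul_pow, Complex.norm_real, Real.norm_eq_abs, sq_abs,
      Real.sq_sqrt (hc z), hV, hV]
    ring
  have h1 := hn W fun _ => rfl
  have h2 := hn W0 fun a => (h.im a).symm
  rw [← h1, ← h2]
  refine (abs_norm_sub_norm_le _ _).trans (le_of_eq ?_)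
  have hN0 : 0 ≤ (-(W x).im) * ‖P365T1.gw A W y x‖ ^ 2 * Wq A W y w :=
    mul_nonneg (mul_nonneg (by linarith [h.h1 x]) (sq_nonneg _)) (Wq_nonneg h.h1 y hw)
  rw [EuclideanSpace.norm_eq]
  rw [show ‖Gr A W y y - Gr A W0 y y‖ = √(‖Gr A W y y - Gr A W0 y y‖ ^ 2) from
    (Real.sqrt_sq (norm_nonneg _)).symm, ← Real.sqrt_mul (sq_nonneg _)]
  congr 1
  unfold Wq
  rw [Finset.mul_sum, Finset.mul_sum]
  refine Finset.sum_congr rfl fun z _ => ?_
  have e : (v W - v W0) z = ((√((W x).im * (W z).im * w z) : ℝ) : ℂ) *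
      (Gr A W x z - Gr A W0 x z) := by
    simp only [v, PiLp.sub_apply]
    ring
  rw [e, h.gr_sub hA, norm_mul, mul_pow, Complex.norm_real, Real.norm_eq_abs, sq_abs,
    Real.sq_sqrt (hc z), norm_mul, norm_mul]
  ring

theorem sqrt_MM_sub (hA : A.IsSymm) (h : OneOff A y W W0) (x : ι) :
    |√(MM A x W) - √(MM A x W0)| ≤
      ‖Gr A W y y - Gr A W0 y y‖ * √((-(W x).im) * ‖P365T1.gw A W y x‖ ^ 2 * Sf A W y) := by
  rw [MM_fun hA x W h.h1, MM_fun hA x W0 h.h0, ← Wq_one]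
  exact sqrt_NN_sub hA h (fun _ => zero_le_one) x

/-- **the flux of `N_x` through `y`** -/
theorem abs_HV_NN (hA : A.IsSymm) (hW : W ∈ Om ι) {w : ι → ℝ} (hw : ∀ z, 0 ≤ w z) (x : ι) :
    |HV A (NN A w x) y W| ≤ (-(W y).im) / Sf A W y *
      (√((-(W x).im) * ‖P365T1.gw A W y x‖ ^ 2 * Wq A W y w) * √(NN A w x W)) := by
  have hm := P365L.mm_pos hA hW y
  have hS := Sf_pos hA hW y
  have hmS := mm_eq_Sf hA hW y
  have hex : 0 < -(W x).im := by linarith [hW x]
  have hey : 0 < -(W y).im := by linarith [hW y]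
  have hK : 0 < ‖Gr A W y y‖ := by
    rw [norm_pos_iff]; exact Gr_self_ne_zero hA hW y
  obtain ⟨S, hSd⟩ : ∃ S : ℝ, S = ∑ z, ((-(W z).im) * w z) * (‖Gr A W x z‖ * ‖Gr A W y z‖) :=
    ⟨_, rfl⟩
  have hcz : ∀ z, 0 ≤ (-(W z).im) * w z := fun z => mul_nonneg (by linarith [hW z]) (hw z)
  have hS0 : 0 ≤ S := by
    rw [hSd]
    exact Finset.sum_nonneg fun z _ => mul_nonneg (hcz z) (by positivity)
  have h1 : |DV (NN A w x) y W| ≤ 2 * ((-(W x).im) * ‖Gr A W x y‖ * S) := by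
    rw [DV_NN hA w x y hW, abs_neg, abs_mul, abs_two]
    refine mul_le_mul_of_nonneg_left ?_ (by norm_num)
    rw [hSd, Finset.mul_sum]
    refine (Finset.abs_sum_le_sum_abs _ _).trans (Finset.sum_le_sum fun z _ => ?_)
    have h3 : |(conj (Gr A W x z) * (Gr A W x y * Gr A W y z)).re| ≤
        ‖Gr A W x z‖ * (‖Gr A W x y‖ * ‖Gr A W y z‖) := by
      refine (Complex.abs_re_le_norm _).trans (le_of_eq ?_)
      rw [norm_mul, norm_mul, Complex.norm_conj]
    have h4 : 0 ≤ (W x).im * (W z).im * w z :=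
      mul_nonneg (mul_nonneg_of_nonpos_of_nonpos (hW x).le (hW z).le) (hw z)
    rw [abs_mul, abs_of_nonneg h4]
    refine (mul_le_mul_of_nonneg_left h3 h4).trans (le_of_eq ?_)
    ring
  have hCS : S ^ 2 ≤ (∑ z, ((-(W z).im) * w z) * ‖Gr A W x z‖ ^ 2) *
      ∑ z, ((-(W z).im) * w z) * ‖Gr A W y z‖ ^ 2 := by
    rw [hSd]
    exact cs_sum Finset.univ _ _ _ (fun z _ => hcz z) (fun z _ => norm_nonneg _)
      (fun z _ => norm_nonneg _)
  have e1 : (-(W x).im) * ∑ z, ((-(W z).im) * w z) * ‖Gr A W x z‖ ^ 2 = NN A w x W := by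
    rw [NN, Finset.mul_sum]
    refine Finset.sum_congr rfl fun z _ => ?_
    unfold TT KK
    ring
  have e2 : ∑ z, ((-(W z).im) * w z) * ‖Gr A W y z‖ ^ 2 = ‖Gr A W y y‖ ^ 2 * Wq A W y w := by
    rw [Wq, Finset.mul_sum]
    refine Finset.sum_congr rfl fun z _ => ?_
    rw [Gr_eq_gw' hA hW y z, norm_mul]
    ring
  have hW0 := Wq_nonneg (A := A) hW y hw
  have hN0 := NN_nonneg (A := A) hw hW x
  -- `e_x |G_xy| S ≤ |t|² √(e_x |c_x|² W) √N`
  have h5 : (-(W x).im) * ‖Gr A W x y‖ * S ≤ ‖Gr A W y y‖ ^ 2 *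
      (√((-(W x).im) * ‖P365T1.gw A W y x‖ ^ 2 * Wq A W y w) * √(NN A w x W)) := by
    have hx0 : 0 ≤ (-(W x).im) * ‖P365T1.gw A W y x‖ ^ 2 * Wq A W y w := by positivity
    rw [← Real.sqrt_mul hx0]
    apply le_of_sq_le_sq _ (by positivity)
    rw [mul_pow (‖Gr A W y y‖ ^ 2), Real.sq_sqrt (by positivity)]
    have e3 : ‖Gr A W x y‖ = ‖P365T1.gw A W y x‖ * ‖Gr A W y y‖ := by
      rw [Gr_eq_gw hA hW y x, norm_mul]
    rw [e2] at hCS
    calc ((-(W x).im) * ‖Gr A W x y‖ * S) ^ 2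
        = ((-(W x).im) * ‖Gr A W x y‖) ^ 2 * S ^ 2 := by ring
      _ ≤ ((-(W x).im) * ‖Gr A W x y‖) ^ 2 *
          ((∑ z, ((-(W z).im) * w z) * ‖Gr A W x z‖ ^ 2) * (‖Gr A W y y‖ ^ 2 * Wq A W y w)) :=
          mul_le_mul_of_nonneg_left hCS (sq_nonneg _)
      _ = (-(W x).im) * ‖Gr A W x y‖ ^ 2 *
          ((-(W x).im) * ∑ z, ((-(W z).im) * w z) * ‖Gr A W x z‖ ^ 2) *
          (‖Gr A W y y‖ ^ 2 * Wq A W y w) := by ring
      _ = (‖Gr A W y y‖ ^ 2) ^ 2 *
          ((-(W x).im) * ‖P365T1.gw A W y x‖ ^ 2 * Wq A W y w * NN A w x W) := by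
          rw [e1, e3]; ring
  have h6 : |HV A (NN A w x) y W| = (-(W y).im) / (2 * mm A W y) * |DV (NN A w x) y W| := by
    rw [HV, abs_mul, abs_of_pos (by positivity : 0 < (-(W y).im) / (2 * mm A W y))]
  rw [h6]
  calc (-(W y).im) / (2 * mm A W y) * |DV (NN A w x) y W|
      ≤ (-(W y).im) / (2 * mm A W y) * (2 * (‖Gr A W y y‖ ^ 2 *
        (√((-(W x).im) * ‖P365T1.gw A W y x‖ ^ 2 * Wq A W y w) * √(NN A w x W)))) := by
        refine mul_le_mul_of_nonneg_left (h1.trans ?_) (by positivity)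
        linarith
    _ = _ := by
        rw [hmS]
        field_simp

/-- `t - t⁰ = - (v - v⁰) t t⁰` -/
theorem OneOff.t_sub (hA : A.IsSymm) (h : OneOff A y W W0) :
    Gr A W y y - Gr A W0 y y = -((W y - W0 y) * (Gr A W y y * Gr A W0 y y)) := by
  have h1 := Gr_self_ne_zero hA h.h1 y
  have h0 := Gr_self_ne_zero hA h.h0 y
  have hs := h.sg
  unfold P365T1.sg at hs
  have h2 : W y - W0 y = (Gr A W y y)⁻¹ - (Gr A W0 y y)⁻¹ := by linear_combination hs
  rw [h2]
  field_simp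
  ring

/-- `∑_x e_x |c_x|² W_x ≤ 4 Γ N̂` for a kernel with `w_xz ≤ 2 h_x + 2 h_z` -/
theorem sum_gW_le (hW : W ∈ Om ι) {w : ι → ι → ℝ} {hy : ι → ℝ}
    (htri : ∀ x z, w x z ≤ 2 * hy x + 2 * hy z) :
    ∑ x, (-(W x).im) * ‖P365T1.gw A W y x‖ ^ 2 * Wq A W y (w x) ≤
      4 * (Sf A W y * Wq A W y hy) := by
  have hg : ∀ x, 0 ≤ (-(W x).im) * ‖P365T1.gw A W y x‖ ^ 2 := fun x =>
    mul_nonneg (by linarith [hW x]) (sq_nonneg _)
  have h1 : ∀ x, Wq A W y (w x) ≤ 2 * hy x * Sf A W y + 2 * Wq A W y hy := by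
    intro x
    have e : 2 * hy x * Sf A W y + 2 * Wq A W y hy =
        ∑ z, (-(W z).im) * ‖P365T1.gw A W y z‖ ^ 2 * (2 * hy x + 2 * hy z) := by
      unfold Wq Sf
      rw [Finset.mul_sum, Finset.mul_sum, ← Finset.sum_add_distrib]
      exact Finset.sum_congr rfl fun z _ => by ring
    rw [e]
    exact Finset.sum_le_sum fun z _ => mul_le_mul_of_nonneg_left (htri x z) (hg z)
  refine (Finset.sum_le_sum fun x _ => mul_le_mul_of_nonneg_left (h1 x) (hg x)).trans
    (le_of_eq ?_)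
  have e2 : ∀ x, (-(W x).im) * ‖P365T1.gw A W y x‖ ^ 2 *
      (2 * hy x * Sf A W y + 2 * Wq A W y hy) =
      2 * Sf A W y * ((-(W x).im) * ‖P365T1.gw A W y x‖ ^ 2 * hy x) +
        2 * Wq A W y hy * ((-(W x).im) * ‖P365T1.gw A W y x‖ ^ 2) := fun x => by ring
  rw [Finset.sum_congr rfl fun x _ => e2 x, Finset.sum_add_distrib, ← Finset.mul_sum,
    ← Finset.mul_sum]
  have e3 : ∑ x, (-(W x).im) * ‖P365T1.gw A W y x‖ ^ 2 * hy x = Wq A W y hy := rfl
  have e4 : ∑ x, (-(W x).im) * ‖P365T1.gw A W y x‖ ^ 2 = Sf A W y := rfl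
  rw [e3, e4]
  ring

/-- **(2b), the moving multiplier**: two configurations which differ in the real potential of `y`,
`u_x = N_x / (M_x rk)` -/
theorem mov_le (hA : A.IsSymm) (h : OneOff A y W W0) {w : ι → ι → ℝ} {hy : ι → ℝ}
    (hw : ∀ x z, 0 ≤ w x z) (hh : ∀ z, 0 ≤ hy z) (htri : ∀ x z, w x z ≤ 2 * hy x + 2 * hy z)
    {lam : ℝ → ℝ} {B D rk : ℝ} (hD : 0 ≤ D)
    (hbd : ∀ u u0, 0 ≤ u → 0 ≤ u0 → u ≤ B → u0 ≤ B → |lam u - lam u0| ≤ D)
    (hlog : ∀ u u0, 0 < u → 0 < u0 → |lam u - lam u0| ≤ (5 / 4) * |Real.log u - Real.log u0|)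
    (hrk : 0 < rk) (hu : ∀ x, NN A (w x) x W / MM A x W / rk ≤ B)
    (hu0 : ∀ x, NN A (w x) x W0 / MM A x W0 / rk ≤ B) :
    ∑ x, |lam (NN A (w x) x W / MM A x W / rk) - lam (NN A (w x) x W0 / MM A x W0 / rk)| *
        |HV A (NN A (w x) x) y W| ≤
      (3 * D + 8) * ((-(W y).im) * ‖Gr A W y y - Gr A W0 y y‖ *
        (4 * Wq A W y hy + 2 * (√(Wq A W y hy) *
          √(∑ x, (-(W x).im) * ‖P365T1.gw A W y x‖ ^ 2 *
            (NN A (w x) x W0 / MM A x W0))))) := by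
  have hΓ := Sf_pos hA h.h1 y
  have hey : 0 < -(W y).im := by linarith [h.h1 y]
  obtain ⟨g, hgd⟩ : ∃ g : ι → ℝ, g = fun x => (-(W x).im) * ‖P365T1.gw A W y x‖ ^ 2 := ⟨_, rfl⟩
  have hg : ∀ x, 0 ≤ g x := fun x => by
    rw [hgd]; exact mul_nonneg (by linarith [h.h1 x]) (sq_nonneg _)
  have hgx : ∀ x, (-(W x).im) * ‖P365T1.gw A W y x‖ ^ 2 = g x := fun x => by rw [hgd]
  obtain ⟨τ, hτ⟩ : ∃ τ : ℝ, τ = ‖Gr A W y y - Gr A W0 y y‖ := ⟨_, rfl⟩
  have hτ0 : 0 ≤ τ := by rw [hτ]; exact norm_nonneg _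
  have hWx : ∀ x, 0 ≤ Wq A W y (w x) := fun x => Wq_nonneg h.h1 y (hw x)
  have hNh : 0 ≤ Wq A W y hy := Wq_nonneg h.h1 y hh
  obtain ⟨r, hrd⟩ : ∃ r : ι → ℝ, r = fun x => NN A (w x) x W0 / MM A x W0 := ⟨_, rfl⟩
  have hr : ∀ x, 0 ≤ r x := fun x => by
    rw [hrd]; exact div_nonneg (NN_nonneg (hw x) h.h0 x) (MM_pos hA h.h0 x).le
  have hrx : ∀ x, NN A (w x) x W0 / MM A x W0 = r x := fun x => by rw [hrd]
  have hC : (0 : ℝ) ≤ 3 * D + 8 := by linarith
  -- one row
  have h1 : ∀ x, |lam (NN A (w x) x W / MM A x W / rk) -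
      lam (NN A (w x) x W0 / MM A x W0 / rk)| * |HV A (NN A (w x) x) y W| ≤
      (3 * D + 8) * ((-(W y).im) / Sf A W y * τ) *
        (g x * Wq A W y (w x) + √(g x * Wq A W y (w x)) * √(Sf A W y * (g x * r x))) := by
    intro x
    have hN := NN_nonneg (A := A) (hw x) h.h1 x
    have hN0 := NN_nonneg (A := A) (hw x) h.h0 x
    have hM := MM_pos hA h.h1 x
    have hM0 := MM_pos hA h.h0 x
    have s1 := sqrt_NN_sub hA h (hw x) x
    have s2 := sqrt_MM_sub hA h x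
    rw [hgx, ← hτ] at s1 s2
    have e1 : NN A (w x) x W / MM A x W / rk = √(NN A (w x) x W) ^ 2 / √(MM A x W) ^ 2 / rk := by
      rw [Real.sq_sqrt hN, Real.sq_sqrt hM.le]
    have e2 : NN A (w x) x W0 / MM A x W0 / rk =
        √(NN A (w x) x W0) ^ 2 / √(MM A x W0) ^ 2 / rk := by
      rw [Real.sq_sqrt hN0, Real.sq_sqrt hM0.le]
    have h3 := scal (lam := lam) hD hbd hlog hrk (Real.sqrt_nonneg (NN A (w x) x W))
      (Real.sqrt_nonneg (NN A (w x) x W0)) (Real.sqrt_pos.2 hM) (Real.sqrt_pos.2 hM0) s1 s2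
      (e1 ▸ hu x) (e2 ▸ hu0 x)
    rw [← e1, ← e2] at h3
    have h4 := abs_HV_NN (y := y) hA h.h1 (hw x) x
    rw [hgx] at h4
    have h5 : √(NN A (w x) x W0) / √(MM A x W0) = √(r x) := by
      rw [← hrx, Real.sqrt_div hN0]
    rw [h5] at h3
    have habs := abs_nonneg (lam (NN A (w x) x W / MM A x W / rk) -
      lam (NN A (w x) x W0 / MM A x W0 / rk))
    have hk : 0 ≤ (-(W y).im) / Sf A W y := by positivity
    have hsq := Real.sqrt_nonneg (g x * Wq A W y (w x))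
    calc |lam (NN A (w x) x W / MM A x W / rk) -
          lam (NN A (w x) x W0 / MM A x W0 / rk)| * |HV A (NN A (w x) x) y W|
        ≤ |lam (NN A (w x) x W / MM A x W / rk) -
          lam (NN A (w x) x W0 / MM A x W0 / rk)| * ((-(W y).im) / Sf A W y *
            (√(g x * Wq A W y (w x)) * √(NN A (w x) x W))) :=
          mul_le_mul_of_nonneg_left h4 habs
      _ = (-(W y).im) / Sf A W y * √(g x * Wq A W y (w x)) *
          (|lam (NN A (w x) x W / MM A x W / rk) -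
          lam (NN A (w x) x W0 / MM A x W0 / rk)| * √(NN A (w x) x W)) := by ring
      _ ≤ (-(W y).im) / Sf A W y * √(g x * Wq A W y (w x)) *
          ((3 * D + 8) * (τ * √(g x * Wq A W y (w x)) + √(r x) * (τ * √(g x * Sf A W y)))) :=
          mul_le_mul_of_nonneg_left h3 (mul_nonneg hk hsq)
      _ = (3 * D + 8) * ((-(W y).im) / Sf A W y * τ) *
          (√(g x * Wq A W y (w x)) * √(g x * Wq A W y (w x)) +
            √(g x * Wq A W y (w x)) * (√(r x) * √(g x * Sf A W y))) := by ring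
      _ = _ := by
          rw [Real.mul_self_sqrt (mul_nonneg (hg x) (hWx x)), ← Real.sqrt_mul (hr x)]
          congr 3
          congr 1
          ring
  have h2 := sum_gW_le (A := A) (y := y) h.h1 htri
  simp only [hgx] at h2
  have h3 : ∑ x, √(g x * Wq A W y (w x)) * √(Sf A W y * (g x * r x)) ≤
      √(4 * (Sf A W y * Wq A W y hy)) * √(Sf A W y * ∑ x, g x * r x) := by
    have h4 := Real.sum_sqrt_mul_sqrt_le (s := Finset.univ)
      (f := fun x => g x * Wq A W y (w x)) (g := fun x => Sf A W y * (g x * r x))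
      (fun x => mul_nonneg (hg x) (hWx x)) (fun x => mul_nonneg hΓ.le (mul_nonneg (hg x) (hr x)))
    refine h4.trans ?_
    rw [← Finset.mul_sum]
    exact mul_le_mul_of_nonneg_right (Real.sqrt_le_sqrt h2) (Real.sqrt_nonneg _)
  have hZ : 0 ≤ ∑ x, g x * r x := Finset.sum_nonneg fun x _ => mul_nonneg (hg x) (hr x)
  have h4 : √(4 * (Sf A W y * Wq A W y hy)) * √(Sf A W y * ∑ x, g x * r x) =
      Sf A W y * (2 * (√(Wq A W y hy) * √(∑ x, g x * r x))) := by
    rw [show 4 * (Sf A W y * Wq A W y hy) = 2 ^ 2 * (Sf A W y * Wq A W y hy) by norm_num,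
      Real.sqrt_mul (by norm_num), Real.sqrt_sq (by norm_num), Real.sqrt_mul hΓ.le,
      Real.sqrt_mul hΓ.le]
    have := Real.mul_self_sqrt hΓ.le
    linear_combination (2 * √(Wq A W y hy) * √(∑ x, g x * r x)) * this
  simp only [hgx, hrx] at h1 ⊢
  have h1' := Finset.sum_le_sum fun x (_ : x ∈ Finset.univ) => h1 x
  refine h1'.trans ?_
  rw [← Finset.mul_sum, Finset.sum_add_distrib]
  have hk : 0 ≤ (3 * D + 8) * ((-(W y).im) / Sf A W y * τ) := by positivity
  calc (3 * D + 8) * ((-(W y).im) / Sf A W y * τ) *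
        (∑ x, g x * Wq A W y (w x) + ∑ x, √(g x * Wq A W y (w x)) * √(Sf A W y * (g x * r x)))
      ≤ (3 * D + 8) * ((-(W y).im) / Sf A W y * τ) *
        (4 * (Sf A W y * Wq A W y hy) + Sf A W y * (2 * (√(Wq A W y hy) * √(∑ x, g x * r x)))) :=
        mul_le_mul_of_nonneg_left (add_le_add h2 (h3.trans h4.le)) hk
    _ = _ := by
        rw [← hτ]
        field_simp

end P365T2.H698
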