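import Vale.Agent.P365.T2.H417.Bri
import Vale.Agent.P365.T2.H618.LEC
import Vale.Agent.P365.T2.H913.Young
import Vale.Agent.P365.T2.UpsBd844
import Vale.Agent.P365.T1.OneVarP

set_option linter.all false

/-!
# P365 T2 / H698 / OneOut: the one-site output of the local law error of the one-body entropy

Input: helper775's `th1_diff` (two potentials at one site) as a hypothesis `hdiff`.
Output: helper678's form: `|∫ ρ' flux(Ups)| ≤ C₁ (1 + log⁺(1/e_y))² e_y ∑_j Yf_j + (4 + k) ∫ Cont dμ`.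
-/

namespace P365T2.H698

open P365L P365O P365T1 MeasureTheory Set Complex
open P365T2.H844 (tt pr Pw Vr ur Gf Gf1 fam)
open P365T2.H37 (wk rho)
open Vale.Agent.P365.T2.H417 (tT)
open Vale.Agent.P365.T2.H789 (Dens)
open P365L.T2.Path (SmLaw continuous_upd WV_mem_LH)
open P365T2.H618 (Mpart ContXY)
open P365T2.H913 (CY CLy)
open P365H878 (HV DV NN MM Om)

section one

variable {ι : Type*} [Fintype ι] [DecidableEq ι] {A : Matrix ι ι ℝ}
variable {X : Type*} [NormedAddCommGroup X] [InnerProductSpace ℝ X]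

/-- multiplier part of the angular derivative (helper775) -/
noncomputable def th1 (Φ : ι → X) (A : Matrix ι ι ℝ) (ε : ℝ) (J : ℕ) (y : ι) (W : ι → ℂ) : ℝ :=
  ∑ x, ∑ k ∈ Finset.range (J + 2), Gf1 ε (ur Φ (P365T2.H844.TT A W) J k x) *
    ∑ b, wk J k (tt Φ x b) * tT A W y x b

/-- `Σ_b e_b |c_b|² |Φ_b - Φ_y|²` -/
noncomputable def Nh (Φ : ι → X) (A : Matrix ι ι ℝ) (W : ι → ℂ) (y : ι) : ℝ :=
  ∑ b, -(W b).im * ‖gw A W y b‖ ^ 2 * tt Φ b y

/-- `Σ_x e_x |c_x|² V_x` -/
noncomputable def BB (Φ : ι → X) (A : Matrix ι ι ℝ) (W : ι → ℂ) (y : ι) : ℝ :=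
  ∑ x, -(W x).im * ‖gw A W y x‖ ^ 2 * Vr Φ (P365T2.H844.TT A W) x

/-- content of `y` (helper678, helper618) -/
noncomputable def Cont (Φ : ι → X) (A : Matrix ι ι ℝ) (J : ℕ) (y : ι) (W : ι → ℂ) : ℝ :=
  ∑ x, ∑ k ∈ Finset.range (J + 2), ContXY Φ A J k x y W

variable {Φ : ι → X}

theorem Vr_nonneg' (hA : A.IsSymm) {W : ι → ℂ} (hW : ∀ x, (W x).im < 0) (x : ι) :
    0 ≤ Vr Φ (P365T2.H844.TT A W) x :=
  P365T2.H844.Vr_nonneg (P365T2.H844.TT_nonneg hW) (P365T2.H844.pr_TT_pos hA hW) x

theorem BB_nonneg (hA : A.IsSymm) {W : ι → ℂ} (hW : ∀ x, (W x).im < 0) (y : ι) :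
    0 ≤ BB Φ A W y :=
  Finset.sum_nonneg fun x _ => mul_nonneg (mul_nonneg (by linarith [hW x]) (sq_nonneg _))
    (Vr_nonneg' hA hW x)

theorem Nh_nonneg {W : ι → ℂ} (hW : ∀ x, (W x).im < 0) (y : ι) : 0 ≤ Nh Φ A W y :=
  Finset.sum_nonneg fun x _ => mul_nonneg (mul_nonneg (by linarith [hW x]) (sq_nonneg _))
    (P365T2.H844.tt_nonneg _ _)

/-- `e_y |t|² ∑ e_x |c_x|² V_x = ∑ T_xy V_x` -/
theorem BB_eq (hA : A.IsSymm) {W : ι → ℂ} (hW : ∀ x, (W x).im < 0) (y : ι) :
    -(W y).im * (‖Gr A W y y‖ ^ 2 * BB Φ A W y) =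
      ∑ x, P365T2.H844.TT A W x y * Vr Φ (P365T2.H844.TT A W) x := by
  unfold BB
  rw [Finset.mul_sum, Finset.mul_sum]
  refine Finset.sum_congr rfl fun x _ => ?_
  unfold P365T2.H844.TT KK
  rw [Gr_eq_gw hA hW y x, norm_mul]
  ring

/-- the content dominates `∑ T_xy V_x` -/
theorem sum_TV_le (hA : A.IsSymm) {W : ι → ℂ} (hW : ∀ x, (W x).im < 0) (J : ℕ) (y : ι) :
    ∑ x, P365T2.H844.TT A W x y * Vr Φ (P365T2.H844.TT A W) x ≤ Cont Φ A J y W := by
  unfold Cont
  refine Finset.sum_le_sum fun x _ => ?_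
  unfold ContXY
  rw [← Finset.mul_sum, Finset.sum_add_distrib, P365T2.H844.sum_Pw_self]
  have h1 := P365T2.H844.TT_nonneg (A := A) hW x y
  have h2 : 0 ≤ ∑ k ∈ Finset.range (J + 2), Pw Φ (P365T2.H844.TT A W) J k y x :=
    Finset.sum_nonneg fun k _ => P365T2.H844.Pw_nonneg (P365T2.H844.TT_nonneg hW)
      (P365T2.H844.pr_TT_pos hA hW) y x
  exact mul_le_mul_of_nonneg_left (by linarith) h1

theorem Cont_nonneg (hA : A.IsSymm) {W : ι → ℂ} (hW : ∀ x, (W x).im < 0) (J : ℕ) (y : ι) :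
    0 ≤ Cont Φ A J y W :=
  Finset.sum_nonneg fun x _ => Finset.sum_nonneg fun k _ =>
    P365T2.H618.ContXY_nonneg hA J k x y hW

theorem continuousOn_Cont (hA : A.IsSymm) (J : ℕ) (y : ι) :
    ContinuousOn (Cont Φ A J y) (Om ι) :=
  continuousOn_finset_sum _ fun x _ => continuousOn_finset_sum _ fun k _ =>
    P365T2.H618.continuousOn_ContXY hA J k x y

/-- the flux of the `k`-th row energy of `x` -/
theorem HV_NN_wk (hA : A.IsSymm) (J k : ℕ) (x y : ι) {W : ι → ℂ} (hW : W ∈ Om ι) :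
    HV A (NN A (fun z => wk J k (tt Φ x z)) x) y W =
      -(W y).im * ∑ b, wk J k (tt Φ x b) * tT A W y x b := by
  have h1 := Vale.Agent.P365.T2.H417.HV_row hA y x (fun b => wk J k (tt Φ x b)) hW
  rw [← h1]
  refine P365T2.H618.HV_congr (fun W' _ => ?_) y hW
  unfold NN
  refine Finset.sum_congr rfl fun b _ => ?_
  rw [P365H878.TT_eq]
  ring

/-- **the flux of the entropy** -/
theorem HV_split (hA : A.IsSymm) {ε : ℝ} (hε : 0 < ε) (J : ℕ) (y : ι) {W : ι → ℂ}
    (hW : W ∈ Om ι) :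
    HV A (fun W => ∑ x, ∑ k ∈ Finset.range (J + 2),
        rho k * pr (P365T2.H844.TT A W) x * Gf ε (ur Φ (P365T2.H844.TT A W) J k x)) y W =
      -(W y).im * th1 Φ A ε J y W -
        ∑ x, ∑ k ∈ Finset.range (J + 2), Mpart Φ A ε J k x y W := by
  have h1 := Vale.Agent.P365.T2.H417.HV_Ups Φ hA hε J y hW
  rw [h1, Finset.mul_sum, th1, Finset.mul_sum, ← Finset.sum_sub_distrib]
  refine Finset.sum_congr rfl fun x _ => ?_
  rw [Finset.mul_sum, Finset.mul_sum, ← Finset.sum_sub_distrib]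
  refine Finset.sum_congr rfl fun k _ => ?_
  have h2 := Vale.Agent.P365.T2.H417.HV_ups Φ hA hε J k y x hW
  have h3 := P365T2.H618.HV_ups (Φ := Φ) hA hε J k x y hW
  rw [← h2, h3, HV_NN_wk hA J k x y hW]
  ring

theorem wv_im (E : ℝ) (e v : ι → ℝ) (x : ι) : (WV E e v x).im = -e x := by simp [WV]

/-- `N̂` for a family of test functions -/
theorem Nh_fam {κ : Type*} [Fintype κ] (F : κ → ι → ℝ) (W : ι → ℂ) (y : ι) :
    Nh (fam F) A W y = ∑ j, Nf A W (F j) y := by
  unfold Nh Nf
  rw [Finset.sum_comm]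
  refine Finset.sum_congr rfl fun b _ => ?_
  rw [P365T2.H844.tt_fam, Finset.mul_sum]

/-- the multiplier part along the line is continuous -/
theorem continuous_th1 (hA : A.IsSymm) {ε : ℝ} (hε : 0 < ε) (J : ℕ) (y : ι) {E : ℝ} {e : ι → ℝ}
    (he : ∀ x, 0 < e x) (v : ι → ℝ) :
    Continuous fun t : ℝ => th1 Φ A ε J y (WV E e (Function.update v y t)) := by
  have h1 : ContinuousOn (fun W : ι → ℂ => ∑ x, ∑ k ∈ Finset.range (J + 2),
      Gf1 ε (ur Φ (P365T2.H844.TT A W) J k x) *
        HV A (NN A (fun z => wk J k (tt Φ x z)) x) y W) (Om ι) :=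
    continuousOn_finset_sum _ fun x _ => continuousOn_finset_sum _ fun k _ =>
      (P365L.T2.Path.contDiffOn_Gf1 (n := 0) hA J k x hε).continuousOn.mul
        (P365H878.contDiffOn_HV hA (P365H878.contDiffOn_NN (n := 2) hA _ x) y).continuousOn
  have h2 := continuous_upd (E := E) h1 he v y
  have h3 : Continuous fun t : ℝ => (e y)⁻¹ * ∑ x, ∑ k ∈ Finset.range (J + 2),
      Gf1 ε (ur Φ (P365T2.H844.TT A (WV E e (Function.update v y t))) J k x) *
        HV A (NN A (fun z => wk J k (tt Φ x z)) x) y (WV E e (Function.update v y t)) :=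
    continuous_const.mul h2
  refine h3.congr fun t => ?_
  have hW : WV E e (Function.update v y t) ∈ Om ι := WV_mem_LH he _
  have him : (WV E e (Function.update v y t) y).im = -(e y) := by simp [WV]
  unfold th1
  rw [Finset.mul_sum]
  refine Finset.sum_congr rfl fun x _ => ?_
  rw [Finset.mul_sum]
  refine Finset.sum_congr rfl fun k _ => ?_
  rw [HV_NN_wk hA J k x y hW, him]
  have := (he y).ne'
  field_simp

variable {E : ℝ} {e : ι → ℝ} {μ : Measure ℝ} {ρ ρ' : ℝ → ℝ} {L C0 C1 : ℝ}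

/-- the mass part of the law error -/
theorem mass_part (hA : A.IsSymm) {ε : ℝ} (hε : 0 < ε) (J : ℕ) (y : ι) (hμ : SmLaw μ ρ ρ')
    (he : ∀ x, 0 < e x) (v : ι → ℝ) :
    |∫ t : ℝ, ρ' t * ∑ x, ∑ k ∈ Finset.range (J + 2),
        Mpart Φ A ε J k x y (WV E e (Function.update v y t))| ≤
      4 * ∫ t, Cont Φ A J y (WV E e (Function.update v y t)) ∂μ := by
  have hc : ∀ x k, Continuous fun t : ℝ =>
      Mpart Φ A ε J k x y (WV E e (Function.update v y t)) := fun x k =>
    continuous_upd (E := E) (P365T2.H618.contDiffOn_Mpart hA hε J k x y).continuousOn he v y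
  have hC : ∀ x k, Continuous fun t : ℝ =>
      ContXY Φ A J k x y (WV E e (Function.update v y t)) := fun x k =>
    continuous_upd (E := E) (P365T2.H618.continuousOn_ContXY hA J k x y) he v y
  have e1 : ∀ t : ℝ, ρ' t * ∑ x, ∑ k ∈ Finset.range (J + 2),
        Mpart Φ A ε J k x y (WV E e (Function.update v y t)) =
      ∑ x, ∑ k ∈ Finset.range (J + 2),
        ρ' t * Mpart Φ A ε J k x y (WV E e (Function.update v y t)) := by
    intro t
    rw [Finset.mul_sum]
    exact Finset.sum_congr rfl fun x _ => Finset.mul_sum _ _ _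
  simp only [e1]
  rw [integral_finset_sum _ fun x _ => integrable_finset_sum _ fun k _ =>
    hμ.integrable_mul' (hc x k)]
  have e2 : ∫ t, Cont Φ A J y (WV E e (Function.update v y t)) ∂μ =
      ∑ x, ∑ k ∈ Finset.range (J + 2),
        ∫ t, ContXY Φ A J k x y (WV E e (Function.update v y t)) ∂μ := by
    unfold Cont
    have hi : ∀ x k, Integrable (fun t : ℝ =>
        ContXY Φ A J k x y (WV E e (Function.update v y t))) μ := by
      intro x k
      rw [hμ.eq, integrable_withDensity_iff_integrable_smul'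
        (hμ.continuous.measurable.ennreal_ofReal)
        (Filter.Eventually.of_forall fun t => ENNReal.ofReal_lt_top)]
      refine (hμ.integrable_mul (hC x k)).congr (Filter.Eventually.of_forall fun t => ?_)
      simp only [ENNReal.toReal_ofReal (hμ.nonneg t), smul_eq_mul]
    rw [integral_finset_sum _ fun x _ => integrable_finset_sum _ fun k _ => hi x k]
    exact Finset.sum_congr rfl fun x _ => integral_finset_sum _ fun k _ => hi x k
  rw [e2, Finset.mul_sum]
  refine (Finset.abs_sum_le_sum_abs _ _).trans (Finset.sum_le_sum fun x _ => ?_)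
  rw [integral_finset_sum _ fun k _ => hμ.integrable_mul' (hc x k), Finset.mul_sum]
  refine (Finset.abs_sum_le_sum_abs _ _).trans (Finset.sum_le_sum fun k _ => ?_)
  exact P365T2.H618.int_Mpart hA hε J k x y hμ he v

/-- **THE ONE-SITE OUTPUT** -/
theorem one_out (hA : A.IsSymm) {κ : Type*} [Fintype κ] (F : κ → ι → ℝ) {ε : ℝ} (hε : 0 < ε)
    (J : ℕ) (y : ι) (hμ : SmLaw μ ρ ρ') (hD : Dens ρ ρ' L C0 C1) (hL : 0 < L)
    (he : ∀ x, 0 < e x) (v : ι → ℝ) {a b k : ℝ} (ha : 0 ≤ a) (hb : 0 ≤ b) (hk : 0 < k)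
    (hdiff : ∀ W : ι → ℂ, (∀ x, (W x).im < 0) → ∀ s s0 : ℝ,
      |th1 (fam F) A ε J y (rez W y s) - th1 (fam F) A ε J y (rez W y s0)| ≤
        |s - s0| * ‖Gr A (rez W y s) y y‖ * ‖Gr A (rez W y s0) y y‖ *
          (a * Nh (fam F) A W y + b * √(Nh (fam F) A W y) * √(BB (fam F) A (rez W y s0) y))) :
    |∫ t : ℝ, ρ' t * HV A (fun W => ∑ x, ∑ k ∈ Finset.range (J + 2),
        rho k * pr (P365T2.H844.TT A W) x * Gf ε (ur (fam F) (P365T2.H844.TT A W) J k x)) y
        (WV E e (Function.update v y t))| ≤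
      CY L C0 C1 a b k * (CLy L E ^ 2 * (1 + max 0 (Real.log (1 / e y))) ^ 2 *
          (e y * ∑ j, Yf A (WV E e v) (F j) y)) +
        (4 + k) * ∫ t, Cont (fam F) A J y (WV E e (Function.update v y t)) ∂μ := by
  have hW : ∀ x, (WV E e v x).im < 0 := fun x => by
    rw [wv_im]; linarith [he x]
  have him : -(WV E e v y).im = e y := by rw [wv_im]; ring
  have hrW : ∀ t : ℝ, rez (WV E e v) y (t - E) = WV E e (Function.update v y t) :=
    fun t => P365T1.OneVar.rez_WV E e v y t
  have hWt : ∀ t : ℝ, WV E e (Function.update v y t) ∈ Om ι := fun t => WV_mem_LH he _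
  have himt : ∀ t : ℝ, -(WV E e (Function.update v y t) y).im = e y := fun t => by
    rw [wv_im]; ring
  -- split of the flux
  have e1 : ∀ t : ℝ, ρ' t * HV A (fun W => ∑ x, ∑ k ∈ Finset.range (J + 2),
        rho k * pr (P365T2.H844.TT A W) x * Gf ε (ur (fam F) (P365T2.H844.TT A W) J k x)) y
        (WV E e (Function.update v y t)) =
      e y * (ρ' t * th1 (fam F) A ε J y (WV E e (Function.update v y t))) -
        ρ' t * ∑ x, ∑ k ∈ Finset.range (J + 2),
          Mpart (fam F) A ε J k x y (WV E e (Function.update v y t)) := by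
    intro t
    rw [HV_split hA hε J y (hWt t), himt]
    ring
  have hth := continuous_th1 (Φ := fam F) (E := E) hA hε J y he v
  have hMc : Continuous fun t : ℝ => ∑ x, ∑ k ∈ Finset.range (J + 2),
      Mpart (fam F) A ε J k x y (WV E e (Function.update v y t)) :=
    continuous_finset_sum _ fun x _ => continuous_finset_sum _ fun k _ =>
      continuous_upd (E := E) (P365T2.H618.contDiffOn_Mpart hA hε J k x y).continuousOn he v y
  simp only [e1]
  rw [integral_sub ((hμ.integrable_mul' hth).const_mul _) (hμ.integrable_mul' hMc),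
    integral_const_mul]
  -- multiplier part
  have hBc : ContinuousOn (fun W : ι → ℂ => BB (fam F) A W y) (Om ι) := by
    unfold BB
    refine continuousOn_finset_sum _ fun x _ => ?_
    refine ContinuousOn.mul (ContinuousOn.mul ?_ ?_) ?_
    · exact (P365H878.contDiff_imc (n := 0) x).neg.continuous.continuousOn
    · refine ContinuousOn.pow (ContinuousOn.norm ?_) 2
      unfold gw
      exact (P365H878.contDiffOn_Gr (n := 0) hA x y).continuousOn.div
        (P365H878.contDiffOn_Gr (n := 0) hA y y).continuousOn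
        fun W hW => Gr_self_ne_zero hA hW y
    · exact (P365L.T2.Path.contDiffOn_Vr (n := 0) hA x).continuousOn
  have hQ := continuous_upd (E := E) hBc he v y
  have h1 := P365T2.H913.site_young_law hA hW y hD hμ hL E (Finset.univ : Finset κ) F
    (f := fun t => th1 (fam F) A ε J y (WV E e (Function.update v y t)))
    (Q := fun t => BB (fam F) A (WV E e (Function.update v y t)) y) (a := a) (b := b) (k := k)
    hth hQ (fun t => BB_nonneg hA (hWt t) y) ha hb hk
    (by
      intro s s0 _ _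
      have h2 := hdiff (WV E e v) hW (s - E) (s0 - E)
      rw [hrW, hrW, Nh_fam] at h2
      rw [hrW, hrW]
      have e2 : s - E - (s0 - E) = s - s0 := by ring
      rw [e2] at h2
      refine h2.trans (le_of_eq ?_)
      ring)
  rw [him] at h1
  have hint : e y * ∫ t, ‖Gr A (rez (WV E e v) y (t - E)) y y‖ ^ 2 *
      BB (fam F) A (WV E e (Function.update v y t)) y ∂μ ≤
      ∫ t, Cont (fam F) A J y (WV E e (Function.update v y t)) ∂μ := by
    rw [← integral_const_mul]
    have hCc := continuous_upd (E := E) (continuousOn_Cont (Φ := fam F) hA J y) he v y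
    have hi : Integrable (fun t : ℝ => Cont (fam F) A J y (WV E e (Function.update v y t))) μ := by
      rw [hμ.eq, integrable_withDensity_iff_integrable_smul'
        (hμ.continuous.measurable.ennreal_ofReal)
        (Filter.Eventually.of_forall fun t => ENNReal.ofReal_lt_top)]
      refine (hμ.integrable_mul hCc).congr (Filter.Eventually.of_forall fun t => ?_)
      simp only [ENNReal.toReal_ofReal (hμ.nonneg t), smul_eq_mul]
    refine integral_mono_of_nonneg (Filter.Eventually.of_forall fun t => ?_) hi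
      (Filter.Eventually.of_forall fun t => ?_)
    · exact mul_nonneg (he y).le (mul_nonneg (sq_nonneg _) (BB_nonneg hA (hWt t) y))
    · show e y * (‖Gr A (rez (WV E e v) y (t - E)) y y‖ ^ 2 *
        BB (fam F) A (WV E e (Function.update v y t)) y) ≤ _
      rw [hrW, ← himt t, BB_eq hA (hWt t) y]
      exact sum_TV_le hA (hWt t) J y
  have h3 := mass_part (Φ := fam F) (E := E) hA hε J y hμ he v
  have h4 : |e y * ∫ t, ρ' t * th1 (fam F) A ε J y (WV E e (Function.update v y t))| ≤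
      CY L C0 C1 a b k * (CLy L E ^ 2 * (1 + max 0 (Real.log (1 / e y))) ^ 2 *
          (e y * ∑ j, Yf A (WV E e v) (F j) y)) +
        k * ∫ t, Cont (fam F) A J y (WV E e (Function.update v y t)) ∂μ := by
    rw [abs_mul, abs_of_pos (he y)]
    refine (mul_le_mul_of_nonneg_left h1 (he y).le).trans ?_
    have h5 := mul_le_mul_of_nonneg_left hint hk.le
    calc _ = CY L C0 C1 a b k * (CLy L E ^ 2 * (1 + max 0 (Real.log (1 / e y))) ^ 2 *
          (e y * ∑ j, Yf A (WV E e v) (F j) y)) +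
          k * (e y * ∫ t, ‖Gr A (rez (WV E e v) y (t - E)) y y‖ ^ 2 *
            BB (fam F) A (WV E e (Function.update v y t)) y ∂μ) := by ring
      _ ≤ _ := by linarith
  refine (abs_sub _ _).trans ?_
  linarith

end one

end P365T2.H698
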